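import Crest.Agent.X262.Geo.Adj
import Crest.Agent.X262.KV.Fc
import Crest.Agent.X262.End95.Pg
import Crest.Agent.X262.DivB81.Ctr

/-!
# Row 262, BND (helper14): the ruling of an exceptional divisor is contracted

* `exists_top` : the form `ω ∧ d t`;
* `lift`       : lifting of sections from a smooth prime divisor (from `KV.kvl_nef` and adjunction);
* `exists_lift`: the same for an arbitrary divisorial valuation;
* `no_sec`     : there is no such section on a divisor which is exceptional over a terminal model;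
* `rcStmt : Bnd.RCStmt`.
-/

set_option autoImplicit false

open scoped KaehlerDifferential

noncomputable section

namespace Crest.Agent.X262.RC14

open Crest.Agent.X277 Crest.Agent.X277.BD Crest.Agent.X277.Pst Crest.Agent.X277.BD.Cyc
open Crest.Agent.X277.Lef Crest.Agent.X277.AN.G1
open Crest.Agent.X277.BD.Br (At On oP kP)
open Crest.Agent.X277.Res.Log (Bd)
open Crest.Agent.X277.Neg (nv)
open Crest.Agent.X262.Mod (IsMod Car)
open Crest.Agent.X262.Geo Crest.Agent.X262.Sark Crest.Agent.X262.Bnd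
open Crest.Agent.X262.FG (dvs pl)
open Module

section Top

variable {k L E : Type} [Field k] [Field L] [Field E] [Algebra k L] [Algebra k E] {n : ℕ}

theorem exists_jf (c : Basis (Fin n) L Ω[L⁄k]) (b : Basis (Fin (n + 1)) E Ω[E⁄k]) (α : L →ₐ[k] E)
    (t : E) : ∃ C : E, ∀ y, jac b (Fin.cons t fun i => α (y i)) = C * α (jac c y) := by
  classical
  obtain ⟨f, hf, hD⟩ := BRep.exists_omap α
  let φ := (b.det.curryLeft (KaehlerDifferential.D k E t)).compLinearMap
    (Fintype.linearCombination E fun j => f (c j))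
  refine ⟨φ (Pi.basisFun E (Fin n)), fun y => ?_⟩
  have h1 := congrArg (fun ψ => ψ fun i j => α (c.repr (KaehlerDifferential.D k L (y i)) j))
    (φ.eq_smul_basis_det (Pi.basisFun E (Fin n)))
  simp only [AlternatingMap.smul_apply, smul_eq_mul, Pi.basisFun_det_apply] at h1
  rw [jac_eq_toMatrix c, AlgHom.map_det, ← Matrix.det_transpose]
  refine Eq.trans ?_ h1
  simp only [φ, AlternatingMap.compLinearMap_apply, AlternatingMap.curryLeft_apply_apply, jac]
  congr 1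
  funext l
  refine Fin.cases rfl (fun i => ?_) l
  simp only [Fin.cons_succ, Matrix.cons_val_succ, Fintype.linearCombination_apply, ← hf, ← hD]
  rw [← map_sum, c.sum_repr]

/-- the form `ω ∧ d t` has at most a double pole along `t = ∞` -/
theorem exists_top [CharZero k] {L : IntermediateField k E} (hL : Rul.PG k L n)
    (b : Basis (Fin (n + 1)) E Ω[E⁄k]) {t : E} (ht : Transcendental L t) :
    ∃ σ : E, σ ≠ 0 ∧ ∀ w : RZ k E, ∃ z : Fin (n + 1) → E, (∀ l, z l ∈ w.1) ∧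
      w.v σ ≤ w.v (jac b z) * max 1 (w.v t) ^ 2 := by
  obtain ⟨c, g, h1, h2⟩ := hL
  obtain ⟨C, hC⟩ := exists_jf c b L.val t
  have h0 : C ≠ 0 := fun h0 => by
    obtain ⟨ι, x, hx⟩ := exists_isTranscendenceBasis' k L
    have h3 := hx.cardinalMk_eq_trdeg
    rw [N8.trdeg_of_basis c, ← Cardinal.mk_fin, Cardinal.eq] at h3
    obtain ⟨e⟩ := h3
    have h4 := (hx.1.comp _ e.symm.injective).map' (f := L.val) L.val.injective
    have h5 := (h4.option_iff_transcendental t).2 (Transcendental.of_tower_top_of_subalgebra_le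
      (B := L.toSubalgebra) (Algebra.adjoin_le (by rintro _ ⟨i, rfl⟩; exact (x _).2)) ht)
    obtain ⟨Z, hZ⟩ := Jet.exists_fr_of_tb
      ((h5.comp _ (finSuccEquiv n).injective).isTranscendenceBasis_of_trdeg_le_of_finite
        (by rw [N8.trdeg_of_basis b, Cardinal.mk_fin]))
    have h6 := N8.jac_frame_ne b Z
    rw [hZ] at h6
    refine h6 (Eq.trans ?_ ((hC fun i => x (e.symm i)).trans (by rw [h0, zero_mul])))
    exact congrArg (jac b) (funext fun l => Fin.cases rfl (fun _ => rfl) l)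
  refine ⟨C * L.val g, mul_ne_zero h0 ((map_ne_zero L.val).2 h1), fun w => ?_⟩
  obtain ⟨z, hz, hv⟩ := h2 ⟨w.1.comap (L.val : L →+* E), fun c => w.2 c⟩
  have hj : jac c z ≠ 0 := fun e => h1 (by
    rw [e, map_zero, le_zero_iff] at hv
    simpa using hv)
  have h3 : w.v (C * L.val g) ≤ w.v (jac b (Fin.cons t fun i => L.val (z i))) := by
    rw [hC, map_mul, map_mul]
    refine mul_le_mul_right ((RZ.le_iff ((map_ne_zero L.val).2 hj)).2 ?_) _
    rw [← map_div₀]
    exact (RZ.le_iff hj).1 hv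
  rcases le_total (w.v t) 1 with h | h
  · refine ⟨_, fun l => ?_, by rwa [max_eq_left h, one_pow, mul_one]⟩
    exact Fin.cases (RZ.le_one_iff.1 h) hz l
  · have h4 : t ≠ 0 := RZ.ne_zero_iff.1 (zero_lt_one.trans_le h).ne'
    refine ⟨Fin.cons t⁻¹ fun i => L.val (z i), fun l => ?_, h3.trans_eq ?_⟩
    · exact Fin.cases (RZ.le_one_iff.1 (by simpa using inv_le_one_of_one_le₀ h)) hz l
    · rw [max_eq_right h, Link.jac_cons_inv, ← map_pow, ← map_mul, ← Valuation.map_neg]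
      congr 1
      field_simp

end Top

variable {F E : Type} [Field F] [Field E] [Algebra ℂ F] [Algebra ℂ E] {P : PModel ℂ F} {n : ℕ}
  {V : RZ ℂ F} {g : F} {H N : BD ℂ F}

theorem pl_ext {q q' : Pl ℂ F ℂ E} (h1 : q.V = q'.V) (h2 : ∀ x, q.r x = q'.r x) : q = q' := by
  obtain ⟨W, φ, h3, h4⟩ := q
  obtain ⟨W', φ', h5, h6⟩ := q'
  obtain rfl : W = W' := h1
  obtain rfl : φ = φ' := RingHom.ext fun x => (Pl.r_coe ⟨W, φ, h3, h4⟩ x).symm.trans
    ((h2 x).trans (Pl.r_coe ⟨W, φ', h5, h6⟩ x))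
  rfl

open Classical in
theorem dvs_single {B : Bd P n} {e : B.ι} (hV : Prm (oP P) V) (h : nv V = B.v e) :
    dvs B (Pi.single e 1) = dv P V := by
  refine Br.ext_at fun x => ⟨_, FG.at_dvs B _ x, ?_⟩
  have h1 : B.mon x (Pi.single e 1) = B.τ e x := by
    rw [Bd.mon, Finset.prod_eq_single e, Pi.single_eq_same, zpow_one]
    · intro e' _ he'
      rw [Pi.single_eq_of_ne he', zpow_zero]
    · simp
  rw [h1]
  by_cases hx : Res.Log.On (B.v e) x
  · exact at_dv hV (h ▸ Bd.eqn hx)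
  · rw [B.off e x hx, inv_one]
    exact at_dv_off fun h2 => hx (h ▸ (on_nv hV.dvs).2 h2)

variable [Algebra.EssFiniteType ℂ F] [Algebra.EssFiniteType ℂ E]

/-- **lifting** from a component of a boundary -/
theorem lift {B : Bd P (n + 1)} {e : B.ι} (p : Link.Plc ℂ F E) (hp : p.v = B.v e)
    {b : Basis (Fin (n + 1)) F Ω[F⁄ℂ]} {b' : Basis (Fin n) E Ω[E⁄ℂ]} (h : Rs (pl p) b b' g)
    (hN : Nef N) (hB : Big N) (hP : N ∈ On P) (h0 : N.val (pl p).V = 1) {σ : E}
    (hσ : ∀ w : RZ ℂ E, ∃ z : Fin n → E, (∀ l, z l ∈ w.1) ∧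
      w.v σ ≤ w.v (jac b' z) * ((pl p).res N).val w) :
    ∃ s ∈ (kP P b + dv P (pl p).V - pr ℂ g + N).Sec, p.r s = σ := by
  classical
  have hV : Prm (oP P) (pl p).V := prm_of_isPD (v := p.v) (hp ▸ B.isPD e)
  have hn : nv (pl p).V = B.v e := (nv_rz p.triv p.unif).trans hp
  have ho : ∀ a, FG.od B e a = od (pl p).V a := fun a => by
    unfold od FG.od
    simp only [hn]
  have hs : Function.Surjective (pl p).φ := p.surj
  have hq : Lnr (pl p) := fun c => ((pl p).r_eq (p.triv c)).trans (p.ρ_alg c)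
  have h1 := h.val_one hs hV
  let b₁ := b.unitsSMul (Pi.mulSingle 0 (Units.mk0 g h.ne))
  have h2 : kP P b₁ = kP P b - pr ℂ g := by
    rw [Br.kP_change b b₁, Basis.det_unitsSMul_self, Fintype.prod_eq_single 0, Pi.mulSingle_eq_same,
      Units.val_mk0, add_sub_cancel_right]
    intro i hi
    rw [Pi.mulSingle_eq_of_ne hi, Units.val_one]
  have h3 : kP P b₁ + dvs B (Pi.single e 1) = kP P b + dv P (pl p).V - pr ℂ g := by
    rw [h2, dvs_single hV hn, add_sub_right_comm]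
  have h4 : kP P b + dv P (pl p).V - pr ℂ g ∈ On P :=
    sub_mem (add_mem (Br.kP_mem b) (dv_mem _)) (Br.pr_mem g)
  have h5 : IsMod ((pl p).rs (oP P)) := by
    have h5 := dg_pos (Geo.isMod_oP P) hV (dim_basis b)
    rw [dg_eq_pl hV.dvs hq hs, List.map_replicate, ← dim_basis b',
      ← (Pl.free_rs Br.free_oP).nef.big_iff] at h5
    exact Mod.isMod_iff.2 ⟨Pl.free_rs Br.free_oP, h5⟩
  have h6 : (kP P b + dv P (pl p).V - pr ℂ g + N).val (pl p).V = 1 := by
    rw [val_add, h1, h0, mul_one]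
  obtain ⟨s, h7, -, h8⟩ := KV.kvl_nef (b := b₁) (D := kP P b + dv P (pl p).V - pr ℂ g + N) (q := 1)
    (φ := 0) (s' := σ) p hp
    (by
      have h7 := (od_eq_zero hV.dvs).2 h1
      rw [← h3, ← ho, map_add, FG.od_dvs, Pi.single_eq_same] at h7
      omega)
    (add_mem h4 hP) hN hB one_pos (fun _ => ⟨le_rfl, one_pos⟩) rfl
    ((ho N).trans ((od_eq_zero hV.dvs).2 h0)) (by rw [h3, one_smul, one_smul])
    (by
      rw [h3, one_smul, FG.dvs_zero, add_zero, pow_one]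
      refine ((car_rs Br.free_oP (car_of_On (add_mem h4 hP))).of_lin
        (Pl.lin_rs_res h6).symm).mem_Sec h5 fun w hw => ?_
      obtain ⟨z, h7, h8⟩ := hσ w
      rw [Pl.res_add h1 h0, val_add]
      exact h8.trans (mul_le_mul_left (h.adj hs hV hw h7) _))
  exact ⟨s, h7, h8⟩

/-- **lifting** from an arbitrary divisorial valuation -/
theorem exists_lift (hV : Dvs V) (b : Basis (Fin (n + 1)) F Ω[F⁄ℂ])
    (b' : Basis (Fin n) (Rf V) Ω[(Rf V)⁄ℂ]) (T : Finset (BD ℂ F)) :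
    ∃ (P : PModel ℂ F) (g : F), Prm (oP P) V ∧ (∀ a ∈ T, a ∈ On P) ∧
      V.v g = (kP P b + dv P V).val V ∧
      ∀ N : BD ℂ F, Nef N → Big N → N ∈ On P → N.val V = 1 → ∀ σ : Rf V,
        (∀ w : RZ ℂ (Rf V), ∃ z : Fin n → Rf V, (∀ l, z l ∈ w.1) ∧
          w.v σ ≤ w.v (jac b' z) * ((plV V).res N).val w) →
        ∃ s ∈ (kP P b + dv P V - pr ℂ g + N).Sec, (plV V).r s = σ := by
  classical
  have := essFT_Rf hV
  obtain ⟨c, -, hc⟩ := exists_prm hV
  obtain ⟨P₀, h1⟩ := Unf.exists_on {c}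
  have h2 : Prm (oP P₀) V := (car_of_On (h1 c (Finset.mem_singleton_self c))).prm hc
  obtain ⟨f, hf⟩ := nv_unif hV
  obtain ⟨P, B, 𝒢, h3, h4, h5, h6⟩ := Unf.exists_logRes_on b P₀ {{f}} T
  obtain ⟨e, he⟩ := Up.exists_lab h4.isoOff (isPD_nv h2)
    (h4.mon _ (h3 (Finset.mem_singleton_self _)) f (Finset.mem_singleton_self _)
      (Link.ne_zero_of_v hf)) (hf ▸ Link.exp_neg_one_lt.ne)
  have h7 : Prm (oP P) V := prm_up (h5 Br.oP_mem) h2
  let p := toPlc (lnr_plV V) (surj_plV V) hV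
  have h9 : pl p = plV V := pl_ext (rz_nv hV) fun x => (KV.pl_r p x).trans (toPlc_r _ _ _ x)
  obtain ⟨g, hg⟩ := exists_rs (lnr_plV V) (surj_plV V) hV b b'
  refine ⟨P, g, h7, h6, hg.val (surj_plV V) h7, fun N h10 h11 h12 h13 σ hσ => ?_⟩
  have h14 := lift (B := B) (e := e) (b := b) (b' := b') (g := g) (N := N) (σ := σ) p he.symm
  rw [h9] at h14
  obtain ⟨s, h15, h16⟩ := h14 hg h10 h11 h12 h13 hσ
  exact ⟨s, h15, (toPlc_r _ _ _ s).symm.trans h16⟩

/-- there are no adjoint sections on a divisor which is exceptional over a terminal model -/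
theorem no_sec {b : Basis (Fin (n + 1)) F Ω[F⁄ℂ]} (Y : TM b) (hV : Dvs V) (hn : ¬ Prm Y.H V)
    (b' : Basis (Fin n) (Rf V) Ω[(Rf V)⁄ℂ]) (hN : Nef N) (hB : Big N) (hc : Car Y.H N)
    (h0 : N.val V = 1) {σ : Rf V} (hσ : ∀ w : RZ ℂ (Rf V), ∃ z : Fin n → Rf V, (∀ l, z l ∈ w.1) ∧
      w.v σ ≤ w.v (jac b' z) * ((plV V).res N).val w) : σ = 0 := by
  obtain ⟨P, g, h1, h2, h3, h4⟩ := exists_lift hV b b' {Y.H}
  have h5 := car_of_On (h2 _ (Finset.mem_singleton_self _))
  obtain ⟨s, h6, rfl⟩ := h4 N hN hB (car_iff_On.1 (h5.trans Br.free_oP hc)) h0 σ hσ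
  by_contra h7
  have h8 : V.v s = 1 := Pl.r_ne_zero_iff.1 h7
  have hg := ne_of_val h3
  have h9 : s ^ Y.r ∈ (Y.κ + Y.r • (N - pr ℂ g)).Sec :=
    (Y.car.add ((hc.sub (Mod.car_pr g)).nsmul _)).mem_Sec Y.mod fun U hU => by
      refine (pow_mem_Sec h6 Y.r U).trans_eq ?_
      rw [val_add, Y.κ_eq P U (h5.prm hU) hU, ← val_add, ← smul_add, val_nsmul, val_nsmul]
      simp only [val_add, val_sub, val_dv_ne (h5.prm hU) (fun h => hn (h ▸ hU) : U ≠ V), mul_one]
      rw [div_mul_eq_mul_div, mul_div_assoc]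
  have h10 := (h9 V).trans_lt (b := (Y.κ + Y.r • (N - pr ℂ g)).val V)
    (c := (Y.r • kP P b + Y.r • (N - pr ℂ g)).val V) (by
      rw [val_add, val_add]
      exact mul_lt_mul_of_pos_right (Y.κ_lt P V h1 hn) (val_pos _ _))
  rw [map_pow, h8, one_pow, ← smul_add, val_nsmul] at h10
  refine h10.not_ge (pow_le_one₀ zero_le ?_)
  rw [val_add, val_sub, h0, val_pr hg, h3, val_add, mul_one_div, div_le_one₀ (by
    exact mul_pos (val_pos _ _) (val_pos _ _))]
  exact le_mul_of_one_le_right' (dv_nonneg V V)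

theorem rcStmt : RCStmt := by
  intro K _ _ _ b Y V L hV hn hL x hx
  by_contra ht
  have := essFT_Rf hV
  obtain ⟨y, ⟨m, s, h1, h2, h3⟩, rfl⟩ := DivB.mem_ctr.1 hx
  obtain ⟨s', h4, h5⟩ := Y.mod.free.exists_gen V
  have h6 : V.v (s * s') = ((m + 1) • Y.H).val V := by rw [succ_nsmul, map_mul, val_add, h2, h5]
  have h7 := ne_of_val h6
  have h8 := Pl.val_sub_gen (p := plV V) h6
  obtain ⟨b'⟩ := exists_basis_dim (Rf V) (n := 3) (by
    have h9 := dim_Rf' hV
    rw [dim_basis b] at h9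
    omega)
  obtain ⟨σ, h9, h10⟩ := exists_top (End95.PG2.pg hL) b' ht
  have h11 : Free ((m + 1) • Y.H - pr ℂ (s * s')) := by
    rw [sub_eq_add_neg]
    exact (Y.mod.free.nsmul _).add (free_neg_pr _)
  have h12 : ∀ z, z * s ∈ (m • Y.H).Sec →
      (plV V).r z ∈ ((plV V).res ((m + 1) • Y.H - pr ℂ (s * s'))).Sec := fun z hz =>
    Pl.r_mem_Sec h8 ((mem_Sec_sub_pr h7).2 (by
      rw [succ_nsmul, ← mul_assoc]
      exact mul_mem_Sec hz h4))
  refine h9 (no_sec Y hV hn b' (N := 2 • ((m + 1) • Y.H - pr ℂ (s * s'))) (h11.nsmul 2).nef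
    (Big.nsmul ?_ two_pos) ((((Mod.car_self Y.mod.free).nsmul _).sub (Mod.car_pr _)).nsmul 2)
    (by rw [val_nsmul]; exact h8.symm ▸ one_pow 2) fun w => ?_)
  · rw [sub_eq_add_neg]
    exact (Y.mod.big.nsmul m.succ_pos).add_eff (free_neg_pr _).eff
  · obtain ⟨z, h13, h14⟩ := h10 w
    refine ⟨z, h13, h14.trans (mul_le_mul_right ?_ _)⟩
    rw [Pl.res_nsmul h8, val_nsmul]
    refine pow_le_pow_left' (max_le ?_ (h12 y h3 w)) 2
    simpa using h12 1 (by rwa [one_mul]) w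

end Crest.Agent.X262.RC14
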